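import Vale.Agent.P166.Haar2.Alg

/-!
The algebra of a path: eigenvalues, the constant mode, and the mean norm.
-/

noncomputable section

open scoped BigOperators

namespace Vale.Agent.P166.Haar2.Algebra

open Vale.Agent.P157.Parisi (IsPath weight)

variable {r : ℕ} {m : Fin r → ℝ}

lemma upMass_last (m : Fin r → ℝ) : El.upMass m (Fin.last r) = 1 := by simp [El.upMass]

lemma upMass_castSucc (m : Fin r → ℝ) (i : Fin r) : El.upMass m i.castSucc = m i := by
  simp [El.upMass]

lemma weight_zero (m : Fin r → ℝ) : weight m 0 = El.upMass m 0 := by simp [weight, El.upMass]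

lemma weight_succ (m : Fin r → ℝ) (i : Fin r) :
    weight m i.succ = El.upMass m i.succ - m i := by simp [weight, El.upMass]

lemma sum_weight (m : Fin r → ℝ) : ∑ p, weight m p = 1 := by
  simp only [weight, Finset.sum_sub_distrib]
  rw [Fin.sum_univ_castSucc, Fin.sum_univ_succ]
  simp

/-- Exponents in `(0, 1)`, increasing. -/
structure Exp (m : Fin r → ℝ) : Prop where
  pos : ∀ i, 0 < m i
  lt_one : ∀ i, m i < 1
  strictMono : StrictMono m

lemma exp_of_path {q : Fin (r + 1) → ℝ} (h : IsPath m q) : Exp m :=
  ⟨h.pos, h.lt_one, h.strictMono⟩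

lemma upMass_mem (h : Exp m) (p : Fin (r + 1)) : 0 < El.upMass m p ∧ El.upMass m p ≤ 1 := by
  cases p using Fin.lastCases with
  | last => simp [upMass_last]
  | cast i => rw [upMass_castSucc]; exact ⟨h.pos i, (h.lt_one i).le⟩

lemma weight_nonneg (h : Exp m) (p : Fin (r + 1)) : 0 ≤ weight m p := by
  cases p using Fin.cases with
  | zero => rw [weight_zero]; exact (upMass_mem h 0).1.le
  | succ i =>
    rw [weight_succ, sub_nonneg]
    by_cases hi : i.val + 1 = r
    · have e : i.succ = Fin.last r := Fin.ext (by simpa using hi)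
      rw [e, upMass_last]; exact (h.lt_one i).le
    · have e : i.succ = (⟨i.val + 1, by omega⟩ : Fin r).castSucc := Fin.ext (by simp)
      rw [e, upMass_castSucc]
      exact h.strictMono.monotone (by simp [Fin.le_def])

/-- A weighted mean is at most a uniform bound. -/
lemma mean_le (h : Exp m) {f : Fin (r + 1) → ℝ} {c : ℝ} (hf : ∀ p, f p ≤ c) :
    ∑ p, weight m p * f p ≤ c :=
  (Finset.sum_le_sum fun p _ => mul_le_mul_of_nonneg_left (hf p) (weight_nonneg h p)).trans
    (by rw [← Finset.sum_mul, sum_weight, one_mul])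

lemma above_cast (f : Fin (r + 1) → ℝ) (i : Fin r) :
    (∑ l, if i.castSucc < l then f l else 0) = f i.succ + ∑ l, if i.succ < l then f l else 0 := by
  have : ∀ l, (if i.castSucc < l then f l else 0) =
      (if l = i.succ then f l else 0) + if i.succ < l then f l else 0 := by
    intro l
    by_cases e : l = i.succ
    · subst e; simp
    · rw [if_neg e, zero_add]
      refine if_congr ?_ rfl rfl
      simp only [Fin.lt_def, Fin.ext_iff, Fin.val_castSucc, Fin.val_succ] at e ⊢
      omega
  simp only [this, Finset.sum_add_distrib, Finset.sum_ite_eq', Finset.mem_univ, if_true]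

lemma eig_last (m : Fin r → ℝ) (x : El r) :
    El.eig m x (Fin.last r) = x.s - x.v (Fin.last r) := by
  simp [El.eig, upMass_last, not_lt.2 (Fin.le_last _)]

lemma eig_step (m : Fin r → ℝ) (x : El r) (i : Fin r) :
    El.eig m x i.castSucc = El.eig m x i.succ + m i * (x.v i.succ - x.v i.castSucc) := by
  simp only [El.eig, upMass_castSucc, above_cast (fun l => weight m l * x.v l), weight_succ]
  ring

lemma ext_eig (h : Exp m) {x y : El r} (he : ∀ p, El.eig m x p = El.eig m y p)
    (h0 : x.v 0 = y.v 0) : x = y := by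
  have hv : ∀ p, x.v p = y.v p := by
    intro p
    induction p using Fin.induction with
    | zero => exact h0
    | succ i ih =>
      have e1 := eig_step m x i
      have e2 := eig_step m y i
      rw [he, he] at e1
      have := h.pos i
      rw [ih] at e1
      have : m i * (x.v i.succ - y.v i.succ) = 0 := by linarith
      rcases mul_eq_zero.1 this with h' | h'
      · linarith
      · linarith
  have hs : x.s = y.s := by
    have := he (Fin.last r)
    rw [eig_last, eig_last, hv] at this
    linarith
  cases x; cases y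
  simp only at hs hv
  simp [hs, funext hv]

/-- The element with given eigenvalues and constant mode. -/
def mk' (m : Fin r → ℝ) (a : Fin (r + 1) → ℝ) (b : ℝ) : El r where
  s := a (Fin.last r) + (b + ∑ i : Fin r, (a i.castSucc - a i.succ) / m i)
  v p := b + ∑ i : Fin r, if i.val < p.val then (a i.castSucc - a i.succ) / m i else 0

lemma mk'_v_zero (m : Fin r → ℝ) (a : Fin (r + 1) → ℝ) (b : ℝ) : (mk' m a b).v 0 = b := by
  simp [mk']

lemma mk'_v_succ (m : Fin r → ℝ) (a : Fin (r + 1) → ℝ) (b : ℝ) (i : Fin r) :
    (mk' m a b).v i.succ = (mk' m a b).v i.castSucc + (a i.castSucc - a i.succ) / m i := by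
  have : ∀ j : Fin r, (if j.val < i.succ.val then (a j.castSucc - a j.succ) / m j else 0) =
      (if j.val < i.castSucc.val then (a j.castSucc - a j.succ) / m j else 0) +
        if j = i then (a j.castSucc - a j.succ) / m j else 0 := by
    intro j
    simp only [Fin.val_succ, Fin.val_castSucc]
    by_cases e : j = i
    · subst e; simp
    · rw [if_neg e, add_zero]
      refine if_congr ?_ rfl rfl
      have : j.val ≠ i.val := fun h => e (Fin.ext h)
      omega
  simp only [mk', this, Finset.sum_add_distrib, Finset.sum_ite_eq', Finset.mem_univ, if_true]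
  ring

lemma eig_mk' (h : Exp m) (a : Fin (r + 1) → ℝ) (b : ℝ) (p : Fin (r + 1)) :
    El.eig m (mk' m a b) p = a p := by
  induction p using Fin.reverseInduction with
  | last =>
    rw [eig_last]
    simp [mk']
  | cast i ih =>
    rw [eig_step, ih, mk'_v_succ, add_sub_cancel_left, mul_div_cancel₀ _ (h.pos i).ne']
    ring

lemma calc'_eq (m : Fin r → ℝ) (f f1 : ℝ → ℝ) (x : El r) :
    El.calc' m f f1 x = mk' m (fun p => f (El.eig m x p)) (f1 (El.eig m x 0) * x.v 0) := by
  simp only [El.calc', mk', El.mk.injEq]
  refine ⟨?_, trivial⟩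
  ring

lemma mk'_self (h : Exp m) (x : El r) : mk' m (El.eig m x) (x.v 0) = x :=
  ext_eig h (eig_mk' h _ _) (mk'_v_zero _ _ _)

/-- The difference. -/
def sub (x y : El r) : El r := ⟨x.s - y.s, fun p => x.v p - y.v p⟩

lemma eig_sub (m : Fin r → ℝ) (x y : El r) (p : Fin (r + 1)) :
    El.eig m (sub x y) p = El.eig m x p - El.eig m y p := by
  have : (∑ l, if p < l then weight m l * (x.v l - y.v l) else 0) =
      (∑ l, if p < l then weight m l * x.v l else 0) -
        ∑ l, if p < l then weight m l * y.v l else 0 := by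
    rw [← Finset.sum_sub_distrib]
    exact Finset.sum_congr rfl fun l _ => by split <;> ring
  simp only [El.eig, sub, this]
  ring

lemma eig_smul (m : Fin r → ℝ) (c : ℝ) (x : El r) (p : Fin (r + 1)) :
    El.eig m (El.smul c x) p = c * El.eig m x p := by
  have : (∑ l, if p < l then weight m l * (c * x.v l) else 0) =
      c * ∑ l, if p < l then weight m l * x.v l else 0 := by
    rw [Finset.mul_sum]
    exact Finset.sum_congr rfl fun l _ => by split <;> ring
  simp only [El.eig, El.smul, this]
  ring

/-- The sum of a family. -/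
def sum {ι : Type*} [Fintype ι] (x : ι → El r) : El r :=
  ⟨∑ k, (x k).s, fun p => ∑ k, (x k).v p⟩

lemma eig_sum {ι : Type*} [Fintype ι] (m : Fin r → ℝ) (x : ι → El r) (p : Fin (r + 1)) :
    El.eig m (sum x) p = ∑ k, El.eig m (x k) p := by
  simp only [El.eig, sum, Finset.sum_sub_distrib, ← Finset.mul_sum]
  congr 2
  rw [Finset.sum_comm]
  refine Finset.sum_congr rfl fun l _ => ?_
  split
  · rw [Finset.mul_sum]
  · simp

lemma eig_mul (m : Fin r → ℝ) (x y : El r) (p : Fin (r + 1)) :
    El.eig m (El.mul m x y) p = El.eig m x p * El.eig m y p := by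
  have hz : ∀ p, (El.mul m x y).v p = El.eig m x p * y.v p + x.v p * El.eig m y p +
      El.upMass m p * x.v p * y.v p - ∑ l, if l ≤ p then weight m l * x.v l * y.v l else 0 := by
    intro p
    have e : (∑ l, if p < l then weight m l * (x.v l * y.v p + x.v p * y.v l) else 0) =
        (∑ l, if p < l then weight m l * x.v l else 0) * y.v p +
          x.v p * ∑ l, if p < l then weight m l * y.v l else 0 := by
      rw [Finset.sum_mul, Finset.mul_sum, ← Finset.sum_add_distrib]
      exact Finset.sum_congr rfl fun l _ => by split <;> ring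
    simp only [El.mul, El.eig, e]
    ring
  induction p using Fin.reverseInduction with
  | last =>
    rw [eig_last m (El.mul m x y), hz, upMass_last, eig_last, eig_last]
    simp only [El.mul, Fin.le_last, if_true]
    ring
  | cast i ih =>
    have hL : (∑ l, if l ≤ i.succ then weight m l * x.v l * y.v l else 0) =
        (∑ l, if l ≤ i.castSucc then weight m l * x.v l * y.v l else 0) +
          weight m i.succ * x.v i.succ * y.v i.succ := by
      have : ∀ l, (if l ≤ i.succ then weight m l * x.v l * y.v l else 0) =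
          (if l ≤ i.castSucc then weight m l * x.v l * y.v l else 0) +
            if l = i.succ then weight m l * x.v l * y.v l else 0 := by
        intro l
        by_cases e : l = i.succ
        · subst e; simp
        · rw [if_neg e, add_zero]
          refine if_congr ?_ rfl rfl
          simp only [Fin.le_def, Fin.ext_iff, Fin.val_castSucc, Fin.val_succ] at e ⊢
          omega
      simp only [this, Finset.sum_add_distrib, Finset.sum_ite_eq', Finset.mem_univ, if_true]
    rw [eig_step m (El.mul m x y), ih, hz, hz, hL, eig_step m x, eig_step m y, weight_succ,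
      upMass_castSucc]
    ring

lemma mul_v_zero (m : Fin r → ℝ) (x y : El r) :
    (El.mul m x y).v 0 = El.eig m x 0 * y.v 0 + x.v 0 * El.eig m y 0 := by
  have e : (∑ l, if (0 : Fin (r + 1)) < l then weight m l * (x.v l * y.v 0 + x.v 0 * y.v l) else 0) =
      (∑ l, if (0 : Fin (r + 1)) < l then weight m l * x.v l else 0) * y.v 0 +
        x.v 0 * ∑ l, if (0 : Fin (r + 1)) < l then weight m l * y.v l else 0 := by
    rw [Finset.sum_mul, Finset.mul_sum, ← Finset.sum_add_distrib]
    exact Finset.sum_congr rfl fun l _ => by split <;> ring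
  have e0 : (∑ l, if l ≤ (0 : Fin (r + 1)) then weight m l * x.v l * y.v l else 0) =
      weight m 0 * x.v 0 * y.v 0 := by
    simp
  simp only [El.mul, El.eig, e, e0, weight_zero]
  ring

/-- The mean norm. -/
def nrm (m : Fin r → ℝ) (x : El r) : ℝ := |x.s| + ∑ p, weight m p * |x.v p|

lemma nrm_sub (m : Fin r → ℝ) (x y : El r) : nrm m (sub x y) = El.dist m x y := rfl

lemma nrm_nonneg (h : Exp m) (x : El r) : 0 ≤ nrm m x :=
  add_nonneg (abs_nonneg _)
    (Finset.sum_nonneg fun p _ => mul_nonneg (weight_nonneg h p) (abs_nonneg _))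

lemma dist_triangle (h : Exp m) (x y z : El r) :
    El.dist m x z ≤ El.dist m x y + El.dist m y z := by
  simp only [El.dist]
  have h1 := abs_sub_le x.s y.s z.s
  have h2 : ∑ p, weight m p * |x.v p - z.v p| ≤
      ∑ p, weight m p * |x.v p - y.v p| + ∑ p, weight m p * |y.v p - z.v p| := by
    rw [← Finset.sum_add_distrib]
    refine Finset.sum_le_sum fun p _ => ?_
    rw [← mul_add]
    exact mul_le_mul_of_nonneg_left (abs_sub_le _ _ _) (weight_nonneg h p)
  linarith

lemma dist_sum {ι : Type*} [Fintype ι] (h : Exp m) (x y : ι → El r) :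
    El.dist m (sum x) (sum y) ≤ ∑ k, El.dist m (x k) (y k) := by
  simp only [El.dist, sum, Finset.sum_add_distrib, ← Finset.sum_sub_distrib]
  refine add_le_add (Finset.abs_sum_le_sum_abs _ _) ?_
  rw [Finset.sum_comm]
  refine Finset.sum_le_sum fun p _ => ?_
  rw [← Finset.mul_sum]
  exact mul_le_mul_of_nonneg_left (Finset.abs_sum_le_sum_abs _ _) (weight_nonneg h p)

lemma nrm_mul_le (h : Exp m) (x y : El r) {B : ℝ} (hs : |y.s| ≤ B) (hv : ∀ p, |y.v p| ≤ B) :
    nrm m (El.mul m x y) ≤ 6 * B * nrm m x := by
  have hB : 0 ≤ B := (abs_nonneg _).trans hs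
  set X := ∑ p, weight m p * |x.v p| with hX
  have hX0 : 0 ≤ X := Finset.sum_nonneg fun p _ => mul_nonneg (weight_nonneg h p) (abs_nonneg _)
  have hw : ∀ p, |weight m p| = weight m p := fun p => abs_of_nonneg (weight_nonneg h p)
  have hxy : ∀ (P : Fin (r + 1) → Prop) [DecidablePred P],
      |∑ l, if P l then weight m l * x.v l * y.v l else 0| ≤ B * X := by
    intro P _
    refine (Finset.abs_sum_le_sum_abs _ _).trans ?_
    rw [hX, Finset.mul_sum]
    refine Finset.sum_le_sum fun l _ => ?_
    have h0 : 0 ≤ B * (weight m l * |x.v l|) :=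
      mul_nonneg hB (mul_nonneg (weight_nonneg h l) (abs_nonneg _))
    split
    · rw [abs_mul, abs_mul, hw, mul_comm]
      exact mul_le_mul_of_nonneg_right (hv l) (mul_nonneg (weight_nonneg h l) (abs_nonneg _))
    · simpa using h0
  have hs' : |(El.mul m x y).s| ≤ B * |x.s| + B * X := by
    refine (abs_sub _ _).trans (add_le_add ?_ ?_)
    · rw [abs_mul, mul_comm]; exact mul_le_mul_of_nonneg_right hs (abs_nonneg _)
    · simpa using hxy fun _ => True
  have hp : ∀ p, |(El.mul m x y).v p| ≤ B * |x.s| + 2 * (B * X) + 3 * B * |x.v p| := by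
    intro p
    have t1 : |x.s * y.v p| ≤ B * |x.s| := by
      rw [abs_mul, mul_comm]; exact mul_le_mul_of_nonneg_right (hv p) (abs_nonneg _)
    have t2 : |x.v p * y.s| ≤ B * |x.v p| := by
      rw [abs_mul, mul_comm]; exact mul_le_mul_of_nonneg_right hs (abs_nonneg _)
    have t3 := hxy fun l => l ≤ p
    have t4 : |El.upMass m p * x.v p * y.v p| ≤ B * |x.v p| := by
      rw [abs_mul, abs_mul, abs_of_pos (upMass_mem h p).1, mul_comm]
      refine mul_le_mul (hv p) (mul_le_of_le_one_left (abs_nonneg _) (upMass_mem h p).2) ?_ hB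
      exact mul_nonneg (upMass_mem h p).1.le (abs_nonneg _)
    have t5 : |∑ l, if p < l then weight m l * (x.v l * y.v p + x.v p * y.v l) else 0| ≤
        B * X + B * |x.v p| := by
      refine (Finset.abs_sum_le_sum_abs _ _).trans ?_
      calc _ ≤ ∑ l, weight m l * (B * |x.v l| + B * |x.v p|) := by
            refine Finset.sum_le_sum fun l _ => ?_
            split
            · rw [abs_mul, hw]
              refine mul_le_mul_of_nonneg_left ((abs_add_le _ _).trans (add_le_add ?_ ?_))
                (weight_nonneg h l)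
              · rw [abs_mul, mul_comm]; exact mul_le_mul_of_nonneg_right (hv p) (abs_nonneg _)
              · rw [abs_mul, mul_comm]; exact mul_le_mul_of_nonneg_right (hv l) (abs_nonneg _)
            · simpa using mul_nonneg (weight_nonneg h l)
                (add_nonneg (mul_nonneg hB (abs_nonneg _)) (mul_nonneg hB (abs_nonneg _)))
        _ = B * X + B * |x.v p| := by
            simp only [mul_add, Finset.sum_add_distrib]
            rw [← Finset.sum_mul, sum_weight, one_mul, hX, Finset.mul_sum]
            congr 1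
            exact Finset.sum_congr rfl fun l _ => by ring
    have e : (El.mul m x y).v p = x.s * y.v p + x.v p * y.s -
        (∑ l, if l ≤ p then weight m l * x.v l * y.v l else 0) -
        El.upMass m p * x.v p * y.v p -
        ∑ l, if p < l then weight m l * (x.v l * y.v p + x.v p * y.v l) else 0 := rfl
    rw [e]
    refine (abs_sub _ _).trans ?_
    refine (add_le_add ((abs_sub _ _).trans (add_le_add ((abs_sub _ _).trans
      (add_le_add ((abs_add_le _ _).trans (add_le_add t1 t2)) t3)) t4)) t5).trans (le_of_eq ?_)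
    ring
  have hsum : ∑ p, weight m p * |(El.mul m x y).v p| ≤ B * |x.s| + 2 * (B * X) + 3 * B * X := by
    refine (Finset.sum_le_sum fun p _ =>
      mul_le_mul_of_nonneg_left (hp p) (weight_nonneg h p)).trans (le_of_eq ?_)
    simp only [mul_add, Finset.sum_add_distrib]
    rw [← Finset.sum_mul, sum_weight, ← Finset.sum_mul, sum_weight, one_mul, one_mul, hX]
    simp only [Finset.mul_sum]
    refine congrArg₂ (· + ·) rfl (Finset.sum_congr rfl fun l _ => ?_)
    ring
  simp only [nrm, ← hX]
  nlinarith [mul_nonneg hB (abs_nonneg x.s), mul_nonneg hB hX0]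

/-- The total variation of an increment list, divided by the exponents. -/
def var (m : Fin r → ℝ) (a : Fin (r + 1) → ℝ) : ℝ := ∑ i, |a i.castSucc - a i.succ| / m i

lemma var_nonneg (h : Exp m) (a : Fin (r + 1) → ℝ) : 0 ≤ var m a :=
  Finset.sum_nonneg fun i _ => div_nonneg (abs_nonneg _) (h.pos i).le

lemma mk'_abs_le (h : Exp m) (a : Fin (r + 1) → ℝ) (b : ℝ) :
    |(mk' m a b).s| ≤ |a (Fin.last r)| + (|b| + var m a) ∧
      ∀ p, |(mk' m a b).v p| ≤ |b| + var m a := by
  refine ⟨(abs_add_le _ _).trans (add_le_add le_rfl ((abs_add_le _ _).trans (add_le_add le_rfl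
    ((Finset.abs_sum_le_sum_abs _ _).trans (le_of_eq (Finset.sum_congr rfl fun i _ => ?_)))))),
    fun p => (abs_add_le _ _).trans (add_le_add le_rfl
      ((Finset.abs_sum_le_sum_abs _ _).trans (Finset.sum_le_sum fun i _ => ?_)))⟩
  · rw [abs_div, abs_of_pos (h.pos i)]
  · split
    · rw [abs_div, abs_of_pos (h.pos i)]
    · simpa using div_nonneg (abs_nonneg _) (h.pos i).le

end Vale.Agent.P166.Haar2.Algebra
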