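import Vale.Agent.P166.Haar2.Algebra.Basic

/-!
The calculus of covariance paths and the eigenvalues of an overlap path.
-/

noncomputable section

open scoped BigOperators

namespace Vale.Agent.P166.Haar2.Algebra

open Vale.Agent.P157.Parisi (IsPath weight)

variable {r : ℕ} {m : Fin r → ℝ}

lemma telescope (g : Fin (r + 1) → ℝ) :
    ∑ i : Fin r, (g i.succ - g i.castSucc) = g (Fin.last r) - g 0 := by
  have h1 := Fin.sum_univ_succ g
  have h2 := Fin.sum_univ_castSucc g
  rw [Finset.sum_sub_distrib]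
  linarith

lemma eig_anti (h : Exp m) {x : El r} (hx : x.IsCov) (i : Fin r) :
    El.eig m x i.succ ≤ El.eig m x i.castSucc := by
  rw [eig_step]
  have := mul_nonneg (h.pos i).le (sub_nonneg.2 (hx.mono i.castSucc_le_succ))
  linarith

lemma eig_mem (h : Exp m) {x : El r} (hx : x.IsCov) (p : Fin (r + 1)) :
    0 ≤ El.eig m x p ∧ El.eig m x p ≤ x.s := by
  have hv : ∀ l, 0 ≤ x.v l := fun l => hx.nonneg.trans (hx.mono (Fin.zero_le l))
  constructor
  · induction p using Fin.reverseInduction with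
    | last => rw [eig_last]; exact sub_nonneg.2 hx.le
    | cast i ih => exact ih.trans (eig_anti h hx i)
  · have h1 : 0 ≤ ∑ l, if p < l then weight m l * x.v l else 0 :=
      Finset.sum_nonneg fun l _ => by
        split
        · exact mul_nonneg (weight_nonneg h l) (hv l)
        · exact le_rfl
    have h2 := mul_nonneg (upMass_mem h p).1.le (hv p)
    simp only [El.eig]
    linarith

lemma var_eig (h : Exp m) {x : El r} (hx : x.IsCov) :
    var m (El.eig m x) = x.v (Fin.last r) - x.v 0 := by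
  rw [← telescope x.v]
  refine Finset.sum_congr rfl fun i _ => ?_
  rw [eig_step, add_sub_cancel_left, abs_of_nonneg (mul_nonneg (h.pos i).le
    (sub_nonneg.2 (hx.mono i.castSucc_le_succ))), mul_div_cancel_left₀ _ (h.pos i).ne']

lemma var_eig_le (h : Exp m) {x : El r} (hx : x.IsCov) : var m (El.eig m x) ≤ x.s := by
  rw [var_eig h hx]
  linarith [hx.nonneg, hx.le]

lemma var_le (h : Exp m) {a e e' : Fin (r + 1) → ℝ} {L L' : ℝ}
    (ha : ∀ i : Fin r, |a i.castSucc - a i.succ| ≤
      L * |e i.castSucc - e i.succ| + L' * |e' i.castSucc - e' i.succ|) :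
    var m a ≤ L * var m e + L' * var m e' := by
  simp only [var, Finset.mul_sum, ← Finset.sum_add_distrib]
  refine Finset.sum_le_sum fun i _ => ?_
  rw [← mul_div_assoc, ← mul_div_assoc, ← add_div]
  exact div_le_div_of_nonneg_right (ha i) (h.pos i).le

/-- The calculus of a monotone Lipschitz function, on covariance paths. -/
theorem calc'_cov (h : Exp m) {x : El r} (hx : x.IsCov) {f f1 : ℝ → ℝ} {L : ℝ}
    (hf0 : f 0 = 0)
    (hf : ∀ u u', 0 ≤ u → u ≤ u' → f u ≤ f u' ∧ f u' - f u ≤ L * (u' - u))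
    (hf1 : ∀ u, 0 ≤ u → 0 ≤ f1 u ∧ f1 u ≤ L) :
    (El.calc' m f f1 x).IsCov ∧ (El.calc' m f f1 x).s ≤ L * x.s ∧
      ∀ p p', |(El.calc' m f f1 x).v p - (El.calc' m f f1 x).v p'| ≤ L * |x.v p - x.v p'| := by
  rw [calc'_eq]
  set z := mk' m (fun p => f (El.eig m x p)) (f1 (El.eig m x 0) * x.v 0) with hz
  have hstep : ∀ i : Fin r, z.v i.castSucc ≤ z.v i.succ ∧
      L * x.v i.castSucc - z.v i.castSucc ≤ L * x.v i.succ - z.v i.succ := by
    intro i
    obtain ⟨h1, h2⟩ := hf _ _ (eig_mem h hx i.succ).1 (eig_anti h hx i)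
    rw [hz, mk'_v_succ]
    have e : (El.eig m x i.castSucc - El.eig m x i.succ) = m i * (x.v i.succ - x.v i.castSucc) := by
      rw [eig_step]; ring
    rw [e] at h2
    refine ⟨le_add_of_nonneg_right (div_nonneg (sub_nonneg.2 h1) (h.pos i).le), ?_⟩
    have : (f (El.eig m x i.castSucc) - f (El.eig m x i.succ)) / m i ≤
        L * (x.v i.succ - x.v i.castSucc) := by
      rw [div_le_iff₀ (h.pos i)]; linarith
    linarith
  have hm1 : Monotone z.v := Fin.monotone_iff_le_succ.2 fun i => (hstep i).1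
  have hm2 : Monotone fun p => L * x.v p - z.v p := Fin.monotone_iff_le_succ.2 fun i => (hstep i).2
  have hv0 : z.v 0 = f1 (El.eig m x 0) * x.v 0 := mk'_v_zero _ _ _
  obtain ⟨g1, g2⟩ := hf1 _ (eig_mem h hx 0).1
  have hlast : z.s - z.v (Fin.last r) = f (El.eig m x (Fin.last r)) := by
    rw [← eig_last m z, hz, eig_mk' h]
  obtain ⟨f2, f3⟩ := hf 0 _ le_rfl (eig_mem h hx (Fin.last r)).1
  rw [hf0] at f2 f3
  rw [eig_last m x] at f3
  have f4 : L * x.v 0 - z.v 0 ≥ 0 := by
    rw [hv0]
    have := mul_le_mul_of_nonneg_right g2 hx.nonneg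
    linarith
  refine ⟨⟨hm1, ?_, by linarith⟩, ?_, fun p p' => ?_⟩
  · rw [hv0]; exact mul_nonneg g1 hx.nonneg
  · rw [eig_last m x] at hlast
    have h5 : L * x.v 0 - z.v 0 ≤ L * x.v (Fin.last r) - z.v (Fin.last r) :=
      hm2 (Fin.zero_le (Fin.last r))
    linarith
  · rcases le_total p p' with hp | hp
    · have a1 := hm1 hp
      have a2 : L * x.v p - z.v p ≤ L * x.v p' - z.v p' := hm2 hp
      have a3 : x.v p - x.v p' ≤ 0 := sub_nonpos.2 (hx.mono hp)
      rw [abs_of_nonpos a3, abs_of_nonpos (by linarith)]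
      linarith
    · have a1 := hm1 hp
      have a2 : L * x.v p' - z.v p' ≤ L * x.v p - z.v p := hm2 hp
      have a3 : 0 ≤ x.v p - x.v p' := sub_nonneg.2 (hx.mono hp)
      rw [abs_of_nonneg a3, abs_of_nonneg (by linarith)]
      linarith

lemma ofPath_cov {q : Fin (r + 1) → ℝ} (hq : IsPath m q) : (El.ofPath q).IsCov :=
  ⟨hq.mono, hq.nonneg, hq.le_one⟩

lemma q_mem {q : Fin (r + 1) → ℝ} (hq : IsPath m q) (p : Fin (r + 1)) : 0 ≤ q p ∧ q p ≤ 1 :=
  ⟨hq.nonneg.trans (hq.mono (Fin.zero_le p)), (hq.mono (Fin.le_last p)).trans hq.le_one⟩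

/-- On the segment of the `i`-th increment the profile is affine. -/
lemma dfun_segment {q : Fin (r + 1) → ℝ} (hq : Monotone q) (m : Fin r → ℝ) (i : Fin r) {u : ℝ}
    (hu : u ∈ Set.Icc (q i.castSucc) (q i.succ)) :
    dfun m q u = dfun m q (q i.succ) + m i * (q i.succ - u) := by
  have hr : q i.succ ≤ q (Fin.last r) := hq (Fin.le_last _)
  have : ∀ j : Fin r, m j * (max u (q j.succ) - max u (q j.castSucc)) =
      m j * (max (q i.succ) (q j.succ) - max (q i.succ) (q j.castSucc)) +
        if j = i then m i * (q i.succ - u) else 0 := by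
    intro j
    rcases lt_trichotomy j i with hj | rfl | hj
    · have h1 : q j.succ ≤ q i.castSucc := hq (Fin.castSucc_lt_iff_succ_le.1
        (by simpa using hj))
      have h2 : q j.castSucc ≤ q i.castSucc := (hq j.castSucc_le_succ).trans h1
      rw [if_neg hj.ne, max_eq_left (h1.trans hu.1), max_eq_left (h2.trans hu.1),
        max_eq_left (by linarith [hu.1, hu.2]), max_eq_left (by linarith [hu.1, hu.2])]
      ring
    · rw [if_pos rfl, max_eq_right hu.2, max_eq_left hu.1, max_self,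
        max_eq_left (hq j.castSucc_le_succ)]
      ring
    · have h1 : q i.succ ≤ q j.castSucc := hq (Fin.castSucc_lt_iff_succ_le.1
        (by simpa using hj))
      have h2 : q i.succ ≤ q j.succ := h1.trans (hq j.castSucc_le_succ)
      rw [if_neg hj.ne', max_eq_right (hu.2.trans h2), max_eq_right (hu.2.trans h1),
        max_eq_right h2, max_eq_right h1]
      ring
  simp only [dfun, max_eq_right (hu.2.trans hr), max_eq_right hr, this, Finset.sum_add_distrib,
    Finset.sum_ite_eq', Finset.mem_univ, if_true]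
  ring

lemma dfun_top {q : Fin (r + 1) → ℝ} (hq : Monotone q) (m : Fin r → ℝ) {u : ℝ}
    (hu : q (Fin.last r) ≤ u) : dfun m q u = 1 - u := by
  have : ∀ j : Fin (r + 1), max u (q j) = u := fun j =>
    max_eq_left ((hq (Fin.le_last j)).trans hu)
  simp [dfun, this]

lemma dfun_bot {q : Fin (r + 1) → ℝ} (hq : Monotone q) (m : Fin r → ℝ) {u : ℝ}
    (hu : u ≤ q 0) : dfun m q u = dfun m q (q 0) := by
  have h1 : ∀ j : Fin (r + 1), max u (q j) = q j := fun j =>
    max_eq_right (hu.trans (hq (Fin.zero_le j)))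
  have h2 : ∀ j : Fin (r + 1), max (q 0) (q j) = q j := fun j =>
    max_eq_right (hq (Fin.zero_le j))
  simp [dfun, h1, h2]

lemma eig_ofPath {q : Fin (r + 1) → ℝ} (hq : IsPath m q) (p : Fin (r + 1)) :
    El.eig m (El.ofPath q) p = dfun m q (q p) := by
  induction p using Fin.reverseInduction with
  | last => rw [eig_last, dfun_top hq.mono m le_rfl]; rfl
  | cast i ih =>
    rw [eig_step, ih,
      dfun_segment hq.mono m i (Set.left_mem_Icc.2 (hq.mono i.castSucc_le_succ))]
    rfl

end Vale.Agent.P166.Haar2.Algebra
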