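import Vale.Agent.P166.Haar2.Algebra.Share

/-!
The block elements and the conjugate field path of an overlap path, and the energy as an integral.
-/

noncomputable section

open MeasureTheory
open scoped BigOperators

namespace Vale.Agent.P166.Haar2.Algebra

open Vale.Agent.P157.Parisi (IsPath weight)

variable {r K : ℕ} {m : Fin r → ℝ} {A : Atoms K}

/-- The primitive of a profile on one affine segment. -/
lemma integral_segment {φ f : ℝ → ℝ} (hφ : ContinuousOn φ (Set.Icc 0 1))
    (hf : ContinuousOn f (Set.Icc 0 1)) (hd : ∀ d ∈ Set.Ioc (0 : ℝ) 1, HasDerivAt f (φ d) d)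
    {g : ℝ → ℝ} {u0 u1 D c : ℝ} (hu : u0 ≤ u1) (hc : 0 < c) (hD : 0 ≤ D)
    (hD1 : D + c * (u1 - u0) ≤ 1) (hg : ∀ u ∈ Set.Icc u0 u1, g u = φ (D + c * (u1 - u))) :
    IntervalIntegrable g volume u0 u1 ∧
      ∫ u in u0..u1, g u = (f (D + c * (u1 - u0)) - f D) / c := by
  have hmaps : Set.MapsTo (fun u => D + c * (u1 - u)) (Set.Icc u0 u1) (Set.Icc 0 1) := by
    intro u hu'
    exact ⟨add_nonneg hD (mul_nonneg hc.le (sub_nonneg.2 hu'.2)),
      le_trans (add_le_add le_rfl (mul_le_mul_of_nonneg_left (sub_le_sub_left hu'.1 u1) hc.le)) hD1⟩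
  have hcont : ContinuousOn (fun u => D + c * (u1 - u)) (Set.Icc u0 u1) := by fun_prop
  have hgc : ContinuousOn g (Set.Icc u0 u1) := (hφ.comp hcont hmaps).congr hg
  refine ⟨hgc.intervalIntegrable_of_Icc hu, ?_⟩
  have h := intervalIntegral.integral_eq_sub_of_hasDerivAt_of_le hu
    (f := fun u => -(f (D + c * (u1 - u))) / c) (f' := g)
    (((hf.comp hcont hmaps).neg).div_const c) (fun u hu' => ?_)
    (hgc.intervalIntegrable_of_Icc hu)
  · rw [h, sub_self, mul_zero, add_zero]
    ring
  · have hin := hmaps (Set.Ioo_subset_Icc_self hu')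
    have hpos : 0 < D + c * (u1 - u) := add_pos_of_nonneg_of_pos hD (mul_pos hc (sub_pos.2 hu'.2))
    have h1 : HasDerivAt (fun u => D + c * (u1 - u)) (-c) u := by
      simpa using (((hasDerivAt_id u).const_sub u1).const_mul c).const_add D
    refine ((((hd _ ⟨hpos, hin.2⟩).comp u h1).neg).div_const c).congr_deriv ?_
    rw [hg u (Set.Ioo_subset_Icc_self hu')]
    field_simp

/-- An integral of a function of the profile of a path is the diagonal value of its primitive. -/
theorem integral_dfun {q : Fin (r + 1) → ℝ} (hq : IsPath m q) {φ f : ℝ → ℝ}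
    (hφ : ContinuousOn φ (Set.Icc 0 1)) (hf : ContinuousOn f (Set.Icc 0 1)) (hf0 : f 0 = 0)
    (hd : ∀ d ∈ Set.Ioc (0 : ℝ) 1, HasDerivAt f (φ d) d) :
    ∫ u in (0 : ℝ)..1, φ (dfun m q u) = (El.calc' m f φ (El.ofPath q)).s := by
  have h := exp_of_path hq
  have hcov := ofPath_cov hq
  set D := El.eig m (El.ofPath q) with hD
  have hDe : ∀ p, D p = dfun m q (q p) := eig_ofPath hq
  have hpre : ∀ p : Fin (r + 1), IntervalIntegrable (fun u => φ (dfun m q u)) volume 0 (q p) ∧
      ∫ u in (0 : ℝ)..q p, φ (dfun m q u) = q 0 * φ (D 0) +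
        ∑ i : Fin r, if i.val < p.val then (f (D i.castSucc) - f (D i.succ)) / m i else 0 := by
    intro p
    induction p using Fin.induction with
    | zero =>
      have e : ∀ u ∈ Set.uIcc 0 (q 0), φ (dfun m q u) = φ (D 0) := fun u hu => by
        rw [Set.uIcc_of_le hq.nonneg] at hu
        rw [dfun_bot hq.mono m hu.2, hDe]
      refine ⟨(intervalIntegrable_const (c := φ (D 0))).congr fun u hu =>
        (e u (Set.uIoc_subset_uIcc hu)).symm, ?_⟩
      rw [intervalIntegral.integral_congr e, intervalIntegral.integral_const]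
      simp
    | succ i ih =>
      have hle : q i.castSucc ≤ q i.succ := hq.mono i.castSucc_le_succ
      have hstep : D i.succ + m i * (q i.succ - q i.castSucc) = D i.castSucc := by
        rw [hD, eig_step]; rfl
      obtain ⟨s1, s2⟩ := integral_segment hφ hf hd (g := fun u => φ (dfun m q u))
        (D := D i.succ) (c := m i) hle (h.pos i) (eig_mem h hcov _).1
        (by rw [hstep]; exact (eig_mem h hcov _).2)
        (fun u hu => by rw [dfun_segment hq.mono m i hu, hDe])
      refine ⟨ih.1.trans s1, ?_⟩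
      rw [← intervalIntegral.integral_add_adjacent_intervals ih.1 s1, ih.2, s2, hstep]
      have : ∀ j : Fin r,
          (if j.val < i.succ.val then (f (D j.castSucc) - f (D j.succ)) / m j else 0) =
          (if j.val < i.castSucc.val then (f (D j.castSucc) - f (D j.succ)) / m j else 0) +
            if j = i then (f (D j.castSucc) - f (D j.succ)) / m j else 0 := by
        intro j
        simp only [Fin.val_succ, Fin.val_castSucc]
        by_cases e : j = i
        · subst e; simp
        · rw [if_neg e, add_zero]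
          refine if_congr ?_ rfl rfl
          have : j.val ≠ i.val := fun h => e (Fin.ext h)
          omega
      simp only [this, Finset.sum_add_distrib, Finset.sum_ite_eq', Finset.mem_univ, if_true]
      ring
  obtain ⟨p1, p2⟩ := hpre (Fin.last r)
  have hl := q_mem hq (Fin.last r)
  obtain ⟨t1, t2⟩ := integral_segment hφ hf hd (g := fun u => φ (dfun m q u)) (D := 0) (c := 1)
    hl.2 one_pos le_rfl (by linarith)
    (fun u hu => by rw [dfun_top hq.mono m hu.1, zero_add, one_mul])
  rw [← intervalIntegral.integral_add_adjacent_intervals p1 t1, p2, t2, hf0, zero_add, one_mul,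
    sub_zero, div_one, calc'_eq]
  simp only [mk', ← hD, Fin.val_last, Fin.is_lt, if_true]
  rw [hDe (Fin.last r), dfun_top hq.mono m le_rfl]
  show _ = _ + (φ (D 0) * q 0 + _)
  ring

theorem blockFacts (hA : AtomFactsStmt) : BlockFactsStmt := by
  intro K A
  have hF := hA K A
  refine ⟨A.ctop⁻¹, fun r m q hq => ?_⟩
  have hc := inv_pos.2 (ctop_pos A)
  obtain ⟨⟨b1, b2, b3⟩, b4, -⟩ := blockEl_cov hF hq (Fin.last K)
  refine ⟨fun k => ⟨(blockEl_cov hF hq k).1, (blockEl_cov hF hq k).2.1⟩,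
    ⟨b1.const_mul hc.le, mul_nonneg hc.le b2, mul_le_mul_of_nonneg_left b3 hc.le⟩,
    mul_le_of_le_one_right hc.le b4, ?_⟩
  obtain ⟨C, hC⟩ := hF.lip
  have hφ : ContinuousOn A.dpsi (Set.Icc 0 1) :=
    (LipschitzOnWith.of_dist_le' (K := C) fun d hd d' hd' => by
      simpa [Real.dist_eq] using (hC d hd d' hd').2.1).continuousOn
  have hb : ∀ k, ContinuousOn (A.blockOf k) (Set.Icc 0 1) := fun k =>
    (LipschitzOnWith.of_dist_le' (K := C) fun d hd d' hd' => by
      simpa [Real.dist_eq] using ((hC d hd d' hd').2.2 k).1).continuousOn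
  rw [integral_dfun hq (φ := A.dpsi) (f := fun d => ∑ k, A.a k * A.blockOf k d) hφ
    (continuousOn_finsetSum _ fun k _ => continuousOn_const.mul (hb k))
    (Finset.sum_eq_zero fun k _ => by rw [blockOf_zero hF k, mul_zero])
    (fun d hd => HasDerivAt.fun_sum fun k _ => (hF.deriv_block k d hd.1).const_mul _)]
  simp only [Atoms.blockEl, El.calc', mul_add, Finset.sum_add_distrib, Atoms.dpsi, Finset.sum_mul]
  refine congrArg₂ (· + ·) (congrArg₂ (· + ·) rfl ?_) (Finset.sum_congr rfl fun k _ => by ring)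
  simp only [Finset.mul_sum]
  rw [Finset.sum_comm]
  refine Finset.sum_congr rfl fun i _ => ?_
  rw [← Finset.sum_sub_distrib, Finset.sum_div]
  exact Finset.sum_congr rfl fun k _ => by ring

theorem fieldLip (hA : AtomFactsStmt) : FieldLipStmt := by
  intro K A Cp
  have hF := hA K A
  have hc := inv_pos.2 (ctop_pos A)
  have hb : 0 ≤ ∑ j, Cp.b j ^ 2 := Finset.sum_nonneg fun j _ => sq_nonneg _
  refine ⟨(∑ j, Cp.b j ^ 2) * A.ctop⁻¹, mul_nonneg hb hc.le, fun r m q hq => ?_⟩
  have h := exp_of_path hq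
  obtain ⟨⟨b1, b2, b3⟩, b4, b5⟩ := blockEl_cov hF hq (Fin.last K)
  set P := A.coordEl m q with hP
  have hPc : P.IsCov := ⟨b1.const_mul hc.le, mul_nonneg hc.le b2, mul_le_mul_of_nonneg_left b3 hc.le⟩
  have hPs : P.s ≤ A.ctop⁻¹ := mul_le_of_le_one_right hc.le b4
  have hPd : ∀ p p', |P.v p - P.v p'| ≤ A.ctop⁻¹ * |q p - q p'| := fun p p' => by
    show |A.ctop⁻¹ * _ - A.ctop⁻¹ * _| ≤ _
    rw [← mul_sub, abs_mul, abs_of_pos hc]
    exact mul_le_mul_of_nonneg_left (b5 p p') hc.le
  have hd : ∀ j, (dampEl m (A.top - Cp.z j) P).IsCov ∧ (dampEl m (A.top - Cp.z j) P).s ≤ 1 * P.s ∧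
      ∀ p p', |(dampEl m (A.top - Cp.z j) P).v p - (dampEl m (A.top - Cp.z j) P).v p'| ≤
        1 * |P.v p - P.v p'| := fun j => by
    have hθ : 0 ≤ A.top - Cp.z j := sub_nonneg.2 (Cp.lt_top j).le
    refine calc'_cov h hPc (by simp [dampF]) (fun u u' hu hu' => ?_) fun u hu => ?_
    · set θ := A.top - Cp.z j
      have h1 : 0 < 1 + θ * u := by positivity
      have h2 : 0 < 1 + θ * u' := by have := hu.trans hu'; positivity
      have e : dampF θ u' - dampF θ u = (u' - u) / ((1 + θ * u') * (1 + θ * u)) := by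
        simp only [dampF]
        rw [div_sub_div _ _ h2.ne' h1.ne']
        congr 1
        ring
      refine ⟨sub_nonneg.1 (by rw [e]; exact div_nonneg (sub_nonneg.2 hu') (mul_pos h2 h1).le), ?_⟩
      rw [e, one_mul]
      refine div_le_self (sub_nonneg.2 hu') (one_le_mul_of_one_le_of_one_le ?_ ?_)
      · linarith [mul_nonneg hθ (hu.trans hu')]
      · linarith [mul_nonneg hθ hu]
    · have h1 : 1 ≤ (1 + (A.top - Cp.z j) * u) ^ 2 :=
        one_le_pow₀ (by linarith [mul_nonneg hθ hu])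
      exact ⟨div_nonneg zero_le_one (zero_le_one.trans h1),
        div_le_one_of_le₀ h1 (zero_le_one.trans h1)⟩
  have hv : ∀ p, (Cp.fieldEl m q).v p =
      ∑ j, Cp.b j ^ 2 * (dampEl m (A.top - Cp.z j) P).v p := fun _ => rfl
  have hs' : (Cp.fieldEl m q).s = ∑ j, Cp.b j ^ 2 * (dampEl m (A.top - Cp.z j) P).s := rfl
  have hcov : (Cp.fieldEl m q).IsCov := by
    refine ⟨fun p p' hp => ?_, ?_, ?_⟩ <;> simp only [hv, hs']
    exacts [Finset.sum_le_sum fun j _ =>
        mul_le_mul_of_nonneg_left ((hd j).1.mono hp) (sq_nonneg _),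
      Finset.sum_nonneg fun j _ => mul_nonneg (sq_nonneg _) (hd j).1.nonneg,
      Finset.sum_le_sum fun j _ => mul_le_mul_of_nonneg_left (hd j).1.le (sq_nonneg _)]
  have hs : (Cp.fieldEl m q).s ≤ (∑ j, Cp.b j ^ 2) * A.ctop⁻¹ := by
    rw [hs']
    rw [Finset.sum_mul]
    refine Finset.sum_le_sum fun j _ => mul_le_mul_of_nonneg_left ?_ (sq_nonneg _)
    exact ((hd j).2.1.trans (le_of_eq (one_mul _))).trans hPs
  refine ⟨hcov, hs, hcov.le.trans hs, fun p p' => ?_⟩
  rw [hv, hv]
  rw [← Finset.sum_sub_distrib, Finset.sum_mul, Finset.sum_mul]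
  refine (Finset.abs_sum_le_sum_abs _ _).trans (Finset.sum_le_sum fun j _ => ?_)
  rw [← mul_sub, abs_mul, abs_of_nonneg (sq_nonneg _), mul_assoc]
  exact mul_le_mul_of_nonneg_left
    ((((hd j).2.2 p p').trans (le_of_eq (one_mul _))).trans (hPd p p')) (sq_nonneg _)

end Vale.Agent.P166.Haar2.Algebra
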