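import Vale.Agent.P166.Haar2.Algebra.Calc
import Vale.Agent.P166.Haar2.Statements

/-!
The shares of the blocks and the block elements of an overlap path.
-/

noncomputable section

open scoped BigOperators

namespace Vale.Agent.P166.Haar2.Algebra

open Vale.Agent.P157.Parisi (IsPath weight)

variable {r K : ℕ} {m : Fin r → ℝ} {A : Atoms K}

lemma eig_calc (h : Exp m) (f f1 : ℝ → ℝ) (x : El r) (p : Fin (r + 1)) :
    El.eig m (El.calc' m f f1 x) p = f (El.eig m x p) := by rw [calc'_eq, eig_mk' h]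

lemma calc_v_zero (m : Fin r → ℝ) (f f1 : ℝ → ℝ) (x : El r) :
    (El.calc' m f f1 x).v 0 = f1 (El.eig m x 0) * x.v 0 := by rw [calc'_eq, mk'_v_zero]

lemma gap_nonneg (A : Atoms K) (k : Fin (K + 1)) : 0 ≤ A.gapTop k :=
  sub_nonneg.2 (A.mono.monotone (Fin.le_last k))

lemma ctop_pos (A : Atoms K) : 0 < A.ctop := A.pos _

/-- The denominator of a share. -/
def den (A : Atoms K) (k : Fin (K + 1)) (y : ℝ) : ℝ := A.ctop + A.gapTop k * y

lemma ctop_le_den (A : Atoms K) (k : Fin (K + 1)) {y : ℝ} (hy : 0 ≤ y) : A.ctop ≤ den A k y :=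
  le_add_of_nonneg_right (mul_nonneg (gap_nonneg A k) hy)

lemma den_pos (A : Atoms K) (k : Fin (K + 1)) {y : ℝ} (hy : 0 ≤ y) : 0 < den A k y :=
  (ctop_pos A).trans_le (ctop_le_den A k hy)

lemma den_inv_le (A : Atoms K) (k : Fin (K + 1)) {y : ℝ} (hy : 0 ≤ y) :
    |(den A k y)⁻¹| ≤ A.ctop⁻¹ := by
  rw [abs_of_pos (inv_pos.2 (den_pos A k hy))]
  exact inv_anti₀ (ctop_pos A) (ctop_le_den A k hy)

lemma den_inv_lip (A : Atoms K) (k : Fin (K + 1)) {y z : ℝ} (hy : 0 ≤ y) (hz : 0 ≤ z) :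
    |(den A k y)⁻¹ - (den A k z)⁻¹| ≤ A.gapTop k / A.ctop ^ 2 * |y - z| := by
  have h1 := den_pos A k hy
  have h2 := den_pos A k hz
  have e : (den A k y)⁻¹ - (den A k z)⁻¹ = A.gapTop k * (z - y) / (den A k y * den A k z) := by
    rw [inv_sub_inv h1.ne' h2.ne']
    congr 1
    simp only [den]; ring
  rw [e, abs_div, abs_mul, abs_of_nonneg (gap_nonneg A k), abs_sub_comm z y,
    abs_of_pos (mul_pos h1 h2), div_mul_eq_mul_div]
  refine div_le_div_of_nonneg_left (mul_nonneg (gap_nonneg A k) (abs_nonneg _))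
    (pow_pos (ctop_pos A) 2) ?_
  rw [sq]
  exact mul_le_mul (ctop_le_den A k hy) (ctop_le_den A k hz) (ctop_pos A).le h1.le

lemma share_last (A : Atoms K) (y : ℝ) : A.share (Fin.last K) y = 1 := by
  simp [Atoms.share, Atoms.gapTop, Atoms.top, Atoms.ctop, (A.pos _).ne']

lemma dshare_last (A : Atoms K) (y : ℝ) : A.dshare (Fin.last K) y = 1 := by
  simp only [Atoms.dshare, Atoms.gapTop, Atoms.top, sub_self, zero_mul, add_zero, Atoms.ctop]
  have := (A.pos (Fin.last K)).ne'
  field_simp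

lemma dshare_pos (A : Atoms K) (k : Fin (K + 1)) {y : ℝ} (hy : 0 ≤ y) : 0 < A.dshare k y :=
  div_pos (mul_pos (A.pos k) (ctop_pos A)) (pow_pos (den_pos A k hy) 2)

section facts

variable (hA : AtomFacts A)
include hA

lemma topOf_zero : A.topOf 0 = 0 :=
  le_antisymm (hA.topOf_le 0 le_rfl) (hA.topOf_nonneg 0)

lemma blockOf_zero (k : Fin (K + 1)) : A.blockOf k 0 = 0 := by
  simp [Atoms.blockOf, topOf_zero hA]

lemma blockOf_mono (k : Fin (K + 1)) {u u' : ℝ} (hu : u ≤ u') :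
    A.blockOf k u ≤ A.blockOf k u' := by
  have hy := hA.topOf_nonneg u
  have hz := hA.topOf_nonneg u'
  have hyz := hA.topOf_mono hu
  simp only [Atoms.blockOf, Atoms.share, mul_div_assoc']
  show A.topOf u * A.c k / den A k (A.topOf u) ≤ A.topOf u' * A.c k / den A k (A.topOf u')
  rw [div_le_div_iff₀ (den_pos A k hy) (den_pos A k hz)]
  have := mul_le_mul_of_nonneg_left hyz (mul_nonneg (A.pos k).le (ctop_pos A).le)
  simp only [den]
  linarith

/-- Each block grows at most like the total, as all grow and the sum is the total. -/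
lemma blockOf_lip (k : Fin (K + 1)) {u u' : ℝ} (hu : 0 ≤ u) (h : u ≤ u') :
    A.blockOf k u' - A.blockOf k u ≤ u' - u := by
  conv_rhs => rw [← hA.sum_blockOf u hu, ← hA.sum_blockOf u' (hu.trans h), ← Finset.sum_sub_distrib]
  exact Finset.single_le_sum (f := fun k => A.blockOf k u' - A.blockOf k u)
    (fun k _ => sub_nonneg.2 (blockOf_mono hA k h)) (Finset.mem_univ k)

lemma dblock_mem (k : Fin (K + 1)) (u : ℝ) :
    0 ≤ A.dblockOf k u ∧ A.dblockOf k u ≤ 1 ∧ ∑ j, A.dblockOf j u = 1 := by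
  have hp := fun j => dshare_pos A j (hA.topOf_nonneg u)
  have hs : 0 < ∑ j, A.dshare j (A.topOf u) :=
    Finset.sum_pos (fun j _ => hp j) Finset.univ_nonempty
  refine ⟨div_nonneg (hp k).le hs.le, (div_le_one hs).2
    (Finset.single_le_sum (fun j _ => (hp j).le) (Finset.mem_univ k)), ?_⟩
  simp only [Atoms.dblockOf, ← Finset.sum_div]
  exact div_self hs.ne'

lemma blockEl_cov {q : Fin (r + 1) → ℝ} (hq : IsPath m q) (k : Fin (K + 1)) :
    (A.blockEl m q k).IsCov ∧ (A.blockEl m q k).s ≤ 1 ∧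
      ∀ p p', |(A.blockEl m q k).v p - (A.blockEl m q k).v p'| ≤ |q p - q p'| := by
  obtain ⟨h1, h2, h3⟩ := calc'_cov (L := 1) (exp_of_path hq) (ofPath_cov hq)
    (f := A.blockOf k) (f1 := A.dblockOf k) (blockOf_zero hA k)
    (fun u u' hu h => ⟨blockOf_mono hA k h, by rw [one_mul]; exact blockOf_lip hA k hu h⟩)
    (fun u _ => ⟨(dblock_mem hA k u).1, (dblock_mem hA k u).2.1⟩)
  refine ⟨h1, h2.trans (le_of_eq (one_mul _)), fun p p' => ?_⟩
  have := h3 p p'
  rwa [one_mul] at this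

lemma sum_blockEl {q : Fin (r + 1) → ℝ} (hq : IsPath m q) :
    sum (fun k => A.blockEl m q k) = El.ofPath q := by
  have h := exp_of_path hq
  refine ext_eig h (fun p => ?_) ?_
  · rw [eig_sum]
    simp only [Atoms.blockEl, eig_calc h]
    exact hA.sum_blockOf _ (eig_mem h (ofPath_cov hq) p).1
  · show ∑ k, (A.blockEl m q k).v 0 = _
    simp only [Atoms.blockEl, calc_v_zero, ← Finset.sum_mul]
    rw [(dblock_mem hA 0 _).2.2, one_mul]

omit hA in
lemma blockEl_eq {q : Fin (r + 1) → ℝ} (hq : IsPath m q) (k : Fin (K + 1)) :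
    A.blockEl m q k = El.calc' m (fun y => y * A.share k y) (A.dshare k)
      (A.blockEl m q (Fin.last K)) := by
  have h := exp_of_path hq
  refine ext_eig h (fun p => ?_) ?_
  · simp only [Atoms.blockEl, eig_calc h, Atoms.blockOf, share_last, mul_one]
  · simp only [Atoms.blockEl, calc_v_zero, eig_calc h, Atoms.blockOf, Atoms.dblockOf, share_last,
      dshare_last, mul_one]
    ring

end facts

end Vale.Agent.P166.Haar2.Algebra
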