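import Vale.Agent.P166.Haar2.Algebra.Share

/-!
Stability of the rotation identity: blocks which nearly solve it are nearly the functions of their
sum. Every residual is carried by a multiplier whose entries are bounded uniformly in the path.
-/

noncomputable section

open scoped BigOperators

namespace Vale.Agent.P166.Haar2.Algebra

open Vale.Agent.P157.Parisi (IsPath weight)

variable {r K : ℕ} {m : Fin r → ℝ} {A : Atoms K}

lemma dist_comm (m : Fin r → ℝ) (x y : El r) : El.dist m x y = El.dist m y x := by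
  simp only [El.dist, abs_sub_comm]

lemma var_eig_le_one (h : Exp m) {x : El r} (hx : x.IsCov ∧ x.s ≤ 1) : var m (El.eig m x) ≤ 1 :=
  (var_eig_le h hx.1).trans hx.2

lemma v_zero_mem {x : El r} (hx : x.IsCov ∧ x.s ≤ 1) : 0 ≤ x.v 0 ∧ x.v 0 ≤ 1 :=
  ⟨hx.1.nonneg, ((hx.1.mono (Fin.le_last 0)).trans hx.1.le).trans hx.2⟩

/-- The Lipschitz constant of the divided difference of block `k`. -/
def lc (A : Atoms K) (k : Fin (K + 1)) : ℝ := A.c k * A.gapTop k / A.ctop ^ 2

/-- The divided difference of `y ↦ y * share k y`. -/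
def dd (A : Atoms K) (k : Fin (K + 1)) (y z : ℝ) : ℝ :=
  A.c k * A.ctop * ((den A k y)⁻¹ * (den A k z)⁻¹)

/-- Its constant mode. -/
def dd0 (A : Atoms K) (k : Fin (K + 1)) (y z b b' : ℝ) : ℝ :=
  -(A.c k * A.ctop * A.gapTop k *
    (b * ((den A k y)⁻¹ * (den A k y)⁻¹ * (den A k z)⁻¹) +
      b' * ((den A k y)⁻¹ * (den A k z)⁻¹ * (den A k z)⁻¹)))

lemma lc_nonneg (A : Atoms K) (k : Fin (K + 1)) : 0 ≤ lc A k :=
  div_nonneg (mul_nonneg (A.pos k).le (gap_nonneg A k)) (sq_nonneg _)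

lemma dd_mem (A : Atoms K) (k : Fin (K + 1)) {y z : ℝ} (hy : 0 ≤ y) (hz : 0 ≤ z) :
    0 ≤ dd A k y z ∧ dd A k y z ≤ A.c k / A.ctop := by
  have hc := ctop_pos A
  have a := den_inv_le A k hy
  have b := den_inv_le A k hz
  have p := inv_pos.2 (den_pos A k hy)
  have q := inv_pos.2 (den_pos A k hz)
  rw [abs_of_pos p] at a
  rw [abs_of_pos q] at b
  refine ⟨mul_nonneg (mul_nonneg (A.pos k).le hc.le) (mul_pos p q).le,
    (mul_le_mul_of_nonneg_left (mul_le_mul a b q.le (inv_pos.2 hc).le)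
      (mul_nonneg (A.pos k).le hc.le)).trans (le_of_eq ?_)⟩
  field_simp

lemma dd_lip (A : Atoms K) (k : Fin (K + 1)) {y z y' z' : ℝ} (hy : 0 ≤ y) (hz : 0 ≤ z)
    (hy' : 0 ≤ y') (hz' : 0 ≤ z') :
    |dd A k y z - dd A k y' z'| ≤ lc A k * |y - y'| + lc A k * |z - z'| := by
  have hc := ctop_pos A
  have e : dd A k y z - dd A k y' z' = A.c k * A.ctop *
      (((den A k y)⁻¹ - (den A k y')⁻¹) * (den A k z)⁻¹ +
        (den A k y')⁻¹ * ((den A k z)⁻¹ - (den A k z')⁻¹)) := by simp only [dd]; ring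
  rw [e, abs_mul, abs_of_pos (mul_pos (A.pos k) hc)]
  have g0 : 0 ≤ A.gapTop k / A.ctop ^ 2 := div_nonneg (gap_nonneg A k) (sq_nonneg _)
  have t1 : |((den A k y)⁻¹ - (den A k y')⁻¹) * (den A k z)⁻¹| ≤
      A.gapTop k / A.ctop ^ 2 * |y - y'| * A.ctop⁻¹ := by
    rw [abs_mul]
    exact mul_le_mul (den_inv_lip A k hy hy') (den_inv_le A k hz) (abs_nonneg _)
      (mul_nonneg g0 (abs_nonneg _))
  have t2 : |(den A k y')⁻¹ * ((den A k z)⁻¹ - (den A k z')⁻¹)| ≤
      A.ctop⁻¹ * (A.gapTop k / A.ctop ^ 2 * |z - z'|) := by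
    rw [abs_mul]
    exact mul_le_mul (den_inv_le A k hy') (den_inv_lip A k hz hz') (abs_nonneg _) (inv_pos.2 hc).le
  refine (mul_le_mul_of_nonneg_left ((abs_add_le _ _).trans (add_le_add t1 t2))
    (mul_pos (A.pos k) hc).le).trans (le_of_eq ?_)
  simp only [lc]
  field_simp

lemma dd0_le (A : Atoms K) (k : Fin (K + 1)) {y z b b' : ℝ} (hy : 0 ≤ y) (hz : 0 ≤ z)
    (hb : 0 ≤ b ∧ b ≤ 1) (hb' : 0 ≤ b' ∧ b' ≤ 1) : |dd0 A k y z b b'| ≤ 2 * lc A k := by
  have hc := ctop_pos A
  have a := den_inv_le A k hy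
  have c := den_inv_le A k hz
  have p := inv_pos.2 (den_pos A k hy)
  have q := inv_pos.2 (den_pos A k hz)
  rw [abs_of_pos p] at a
  rw [abs_of_pos q] at c
  have g : 0 ≤ A.c k * A.ctop * A.gapTop k :=
    mul_nonneg (mul_nonneg (A.pos k).le hc.le) (gap_nonneg A k)
  have b0 := hb.1
  have b0' := hb'.1
  rw [dd0, abs_neg, abs_of_nonneg (mul_nonneg g (by positivity))]
  have t1 : b * ((den A k y)⁻¹ * (den A k y)⁻¹ * (den A k z)⁻¹) ≤
      1 * (A.ctop⁻¹ * A.ctop⁻¹ * A.ctop⁻¹) :=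
    mul_le_mul hb.2 (by gcongr) (by positivity) zero_le_one
  have t2 : b' * ((den A k y)⁻¹ * (den A k z)⁻¹ * (den A k z)⁻¹) ≤
      1 * (A.ctop⁻¹ * A.ctop⁻¹ * A.ctop⁻¹) :=
    mul_le_mul hb'.2 (by gcongr) (by positivity) zero_le_one
  refine (mul_le_mul_of_nonneg_left (add_le_add t1 t2) g).trans (le_of_eq ?_)
  simp only [lc]
  field_simp
  ring

lemma calc_id {c ct g u e P : ℝ} (hP : P ≠ 0) (hd : P = ct + g * u) :
    u * (c / P) - e = (c * u - (ct * e - -g * (e * u))) * P⁻¹ := by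
  field_simp
  rw [hd]; ring

lemma calc_id0 {c ct g u e b e0 P : ℝ} (hP : P ≠ 0) (hd : P = ct + g * u) :
    c * ct / P ^ 2 * b - e0 = (c * u - (ct * e - -g * (e * u))) * -(g * b * P⁻¹ ^ 2) +
      (c * b - (ct * e0 - -g * (e * b + e0 * u))) * P⁻¹ := by
  field_simp
  rw [hd]; ring

lemma dd_id {c ct g u v P P' : ℝ} (hP : P ≠ 0) (hP' : P' ≠ 0) (hd : P = ct + g * u)
    (hd' : P' = ct + g * v) : u * (c / P) - v * (c / P') = (u - v) * (c * ct * (P⁻¹ * P'⁻¹)) := by
  field_simp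
  rw [hd, hd']; ring

lemma dd_id0 {c ct g u v b b' P P' : ℝ} (hP : P ≠ 0) (hP' : P' ≠ 0) (hd : P = ct + g * u)
    (hd' : P' = ct + g * v) : c * ct / P ^ 2 * b - c * ct / P' ^ 2 * b' =
      (u - v) * -(c * ct * g * (b * (P⁻¹ * P⁻¹ * P'⁻¹) + b' * (P⁻¹ * P'⁻¹ * P'⁻¹))) +
        (b - b') * (c * ct * (P⁻¹ * P'⁻¹)) := by
  field_simp
  rw [hd, hd']; ring

/-- A multiplier with small entries. -/
lemma nrm_mul_mk' (h : Exp m) (x : El r) (a : Fin (r + 1) → ℝ) (b : ℝ) {B0 B1 B2 : ℝ}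
    (ha : |a (Fin.last r)| ≤ B0) (hb : |b| ≤ B1) (hv : var m a ≤ B2) :
    nrm m (El.mul m x (mk' m a b)) ≤ 6 * (B0 + B1 + B2) * nrm m x := by
  obtain ⟨h1, h2⟩ := mk'_abs_le h a b
  refine nrm_mul_le h x _ (h1.trans (by linarith)) fun p => (h2 p).trans ?_
  linarith [(abs_nonneg (a (Fin.last r))).trans ha]

/-- Step one: a block is near the function of the top one. -/
theorem near_calc (h : Exp m) (A : Atoms K) (k : Fin (K + 1)) {e b : El r}
    (hb : b.IsCov ∧ b.s ≤ 1) {ε : ℝ}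
    (hR : El.dist m (El.smul (A.c k) b)
      ⟨A.ctop * e.s + A.gapTop k * (El.mul m e b).s,
        fun p => A.ctop * e.v p + A.gapTop k * (El.mul m e b).v p⟩ ≤ ε) :
    El.dist m e (El.calc' m (fun y => y * A.share k y) (A.dshare k) b) ≤
      6 * (A.ctop⁻¹ + A.gapTop k / A.ctop ^ 2 + A.gapTop k / A.ctop ^ 2) * ε := by
  set R := sub (El.smul (A.c k) b)
    (sub (El.smul A.ctop e) (El.smul (-A.gapTop k) (El.mul m e b))) with hRdef
  have hRε : nrm m R ≤ ε := by
    refine le_trans (le_of_eq ?_) hR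
    simp only [hRdef, nrm, sub, El.smul, El.dist, neg_mul, sub_neg_eq_add]
  have pos := fun p => den_pos A k (eig_mem h hb.1 p).1
  have key : sub (El.calc' m (fun y => y * A.share k y) (A.dshare k) b) e =
      El.mul m R (mk' m (fun p => (den A k (El.eig m b p))⁻¹)
        (-(A.gapTop k * b.v 0 * ((den A k (El.eig m b 0))⁻¹) ^ 2))) := by
    refine ext_eig h (fun p => ?_) ?_
    · simp only [eig_sub, eig_calc h, eig_mul, eig_mk' h, hRdef, eig_smul]
      exact calc_id (pos p).ne' rfl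
    · have e1 : ∀ x y : El r, (sub x y).v 0 = x.v 0 - y.v 0 := fun x y => rfl
      have e2 : ∀ (c : ℝ) (x : El r), (El.smul c x).v 0 = c * x.v 0 := fun c x => rfl
      simp only [mul_v_zero, eig_mk' h, mk'_v_zero, hRdef, e1, e2, calc_v_zero, eig_sub, eig_smul,
        eig_mul]
      exact calc_id0 (pos 0).ne' rfl
  rw [dist_comm, ← nrm_sub, key]
  have hg := gap_nonneg A k
  refine (nrm_mul_mk' h R _ _ (den_inv_le A k (eig_mem h hb.1 _).1) ?_ ?_).trans
    (mul_le_mul_of_nonneg_left hRε ?_)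
  · rw [abs_neg, abs_mul, abs_mul, abs_of_nonneg hg, abs_of_nonneg (v_zero_mem hb).1, div_eq_mul_inv]
    refine mul_le_mul (mul_le_of_le_one_right hg (v_zero_mem hb).2) ?_ (abs_nonneg _) hg
    rw [abs_pow, ← inv_pow]
    exact pow_le_pow_left₀ (abs_nonneg _) (den_inv_le A k (eig_mem h hb.1 _).1) 2
  · refine le_trans (var_le h (e := El.eig m b) (e' := El.eig m b) (L := A.gapTop k / A.ctop ^ 2) (L' := 0) fun i => ?_) ?_
    · simpa using den_inv_lip A k (eig_mem h hb.1 i.castSucc).1 (eig_mem h hb.1 i.succ).1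
    · simpa using mul_le_of_le_one_right (div_nonneg hg (sq_nonneg A.ctop)) (var_eig_le_one h hb)
  · have := inv_pos.2 (ctop_pos A)
    positivity

/-- The difference of two values of the function of block `k`, through a bounded multiplier. -/
lemma sub_calc (h : Exp m) (A : Atoms K) (k : Fin (K + 1)) {b G : El r}
    (hb : b.IsCov ∧ b.s ≤ 1) (hG : G.IsCov ∧ G.s ≤ 1) :
    sub (El.calc' m (fun y => y * A.share k y) (A.dshare k) b)
        (El.calc' m (fun y => y * A.share k y) (A.dshare k) G) =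
      El.mul m (sub b G) (mk' m (fun p => dd A k (El.eig m b p) (El.eig m G p))
        (dd0 A k (El.eig m b 0) (El.eig m G 0) (b.v 0) (G.v 0))) := by
  have pb := fun p => den_pos A k (eig_mem h hb.1 p).1
  have pG := fun p => den_pos A k (eig_mem h hG.1 p).1
  refine ext_eig h (fun p => ?_) ?_
  · simp only [eig_sub, eig_calc h, eig_mul, eig_mk' h, dd]
    exact dd_id (pb p).ne' (pG p).ne' rfl rfl
  · rw [mul_v_zero, eig_mk' h, mk'_v_zero, eig_sub]
    simp only [sub, calc_v_zero, dd, dd0]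
    exact dd_id0 (pb 0).ne' (pG 0).ne' rfl rfl

theorem stable (hA : AtomFactsStmt) : StableStmt := by
  intro K A
  have hAF := hA K A
  have hc := ctop_pos A
  set C₁ : Fin (K + 1) → ℝ := fun k =>
    6 * (A.ctop⁻¹ + A.gapTop k / A.ctop ^ 2 + A.gapTop k / A.ctop ^ 2) with hC₁
  set L := ∑ k, lc A k with hLdef
  set C₂ : Fin (K + 1) → ℝ := fun k =>
    6 * (A.c k / A.ctop + 2 * lc A k + 2 * lc A k) * (6 * (1 + 2 * L + 2 * L) * (1 + ∑ j, C₁ j))
    with hC₂
  have hC₁0 : ∀ k, 0 ≤ C₁ k := fun k => by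
    have := gap_nonneg A k
    positivity
  have hL : 0 ≤ L := Finset.sum_nonneg fun k _ => lc_nonneg A k
  have hsC : 0 ≤ ∑ j, C₁ j := Finset.sum_nonneg fun k _ => hC₁0 k
  have hC₂0 : ∀ k, 0 ≤ C₂ k := fun k => by
    have := lc_nonneg A k
    have := (A.pos k).le
    positivity
  refine ⟨∑ k, C₁ k + ∑ k, C₂ k, fun r m q hq e he ε hε hsum hrot => ?_⟩
  have h := exp_of_path hq
  set b := e (Fin.last K)
  set G := A.blockEl m q (Fin.last K)
  have hG : G.IsCov ∧ G.s ≤ 1 :=
    ⟨(blockEl_cov hAF hq _).1, (blockEl_cov hAF hq _).2.1⟩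
  set F : El r → Fin (K + 1) → El r := fun x k =>
    El.calc' m (fun y => y * A.share k y) (A.dshare k) x with hF
  have h1 : ∀ k, El.dist m (e k) (F b k) ≤ C₁ k * ε := fun k => near_calc h A k (he _) (hrot k)
  have hQ : sum (F G) = El.ofPath q := by
    rw [show F G = fun k => A.blockEl m q k from funext fun k => (blockEl_eq (A := A) hq k).symm]
    exact sum_blockEl hAF hq
  have hS : El.dist m (sum (F b)) (El.ofPath q) ≤ (1 + ∑ j, C₁ j) * ε := by
    refine (dist_triangle h _ (sum e) _).trans ?_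
    rw [dist_comm, add_mul, one_mul, Finset.sum_mul, add_comm ε]
    exact add_le_add ((dist_sum h _ _).trans (Finset.sum_le_sum fun k _ => h1 k)) hsum
  -- the top block, through the inverse divided difference of the total
  set a : Fin (r + 1) → ℝ := fun p => ∑ k, dd A k (El.eig m b p) (El.eig m G p) with ha
  set B := ∑ k, dd0 A k (El.eig m b 0) (El.eig m G 0) (b.v 0) (G.v 0) with hB
  have hb : b.IsCov ∧ b.s ≤ 1 := he _
  have hpos : ∀ p, 0 ≤ El.eig m b p ∧ 0 ≤ El.eig m G p := fun p =>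
    ⟨(eig_mem h hb.1 p).1, (eig_mem h hG.1 p).1⟩
  have ha1 : ∀ p, 1 ≤ a p := fun p => by
    refine le_trans (le_of_eq ?_) (Finset.single_le_sum
      (fun k _ => (dd_mem A k (hpos p).1 (hpos p).2).1) (Finset.mem_univ (Fin.last K)))
    simp only [dd, den, Atoms.gapTop, Atoms.top, sub_self, zero_mul, add_zero]
    rw [show A.c (Fin.last K) = A.ctop from rfl]
    field_simp
  have key : sub b G =
      El.mul m (sub (sum (F b)) (El.ofPath q)) (mk' m (fun p => (a p)⁻¹) (-(B * (a 0)⁻¹ ^ 2))) := by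
    rw [← hQ]
    refine ext_eig h (fun p => ?_) ?_
    · have hne : a p ≠ 0 := (zero_lt_one.trans_le (ha1 p)).ne'
      have e1 : ∀ k, El.eig m (F b k) p - El.eig m (F G k) p =
          (El.eig m b p - El.eig m G p) * dd A k (El.eig m b p) (El.eig m G p) := fun k => by
        rw [← eig_sub, hF, sub_calc h A k hb hG, eig_mul, eig_mk' h, eig_sub]
      rw [eig_mul, eig_mk' h, eig_sub, eig_sub, eig_sum, eig_sum, ← Finset.sum_sub_distrib]
      simp only [e1, ← Finset.mul_sum]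
      exact (mul_inv_cancel_right₀ hne _).symm
    · have hne : a 0 ≠ 0 := (zero_lt_one.trans_le (ha1 0)).ne'
      have e1 : ∀ k, El.eig m (F b k) 0 - El.eig m (F G k) 0 =
          (El.eig m b 0 - El.eig m G 0) * dd A k (El.eig m b 0) (El.eig m G 0) := fun k => by
        rw [← eig_sub, hF, sub_calc h A k hb hG, eig_mul, eig_mk' h, eig_sub]
      have e2 : ∀ k, (F b k).v 0 - (F G k).v 0 =
          (El.eig m b 0 - El.eig m G 0) *
              dd0 A k (El.eig m b 0) (El.eig m G 0) (b.v 0) (G.v 0) +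
            (b.v 0 - G.v 0) * dd A k (El.eig m b 0) (El.eig m G 0) := fun k => by
        show (sub (F b k) (F G k)).v 0 = _
        rw [hF, sub_calc h A k hb hG, mul_v_zero, eig_mk' h, mk'_v_zero, eig_sub]
        rfl
      rw [mul_v_zero, eig_mk' h, mk'_v_zero, eig_sub, eig_sum, eig_sum]
      show b.v 0 - G.v 0 = _ + (∑ k, (F b k).v 0 - ∑ k, (F G k).v 0) * _
      simp only [← Finset.sum_sub_distrib, e1, e2, Finset.sum_add_distrib, ← Finset.mul_sum]
      simp only [← hB]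
      field_simp
      ring
  have hvar : var m a ≤ 2 * L := by
    refine (var_le h (L := L) (L' := L) (e := El.eig m b) (e' := El.eig m G) fun i => ?_).trans ?_
    · simp only [ha, ← Finset.sum_sub_distrib, hLdef, Finset.sum_mul, ← Finset.sum_add_distrib]
      exact (Finset.abs_sum_le_sum_abs _ _).trans (Finset.sum_le_sum fun k _ =>
        dd_lip A k (hpos _).1 (hpos _).2 (hpos _).1 (hpos _).2)
    · have := mul_le_of_le_one_right hL (var_eig_le_one h hb)
      have := mul_le_of_le_one_right hL (var_eig_le_one h hG)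
      linarith
  have hbG : nrm m (sub b G) ≤ 6 * (1 + 2 * L + 2 * L) * ((1 + ∑ j, C₁ j) * ε) := by
    rw [key]
    refine (nrm_mul_mk' h _ _ _ (B0 := 1) (B1 := 2 * L) (B2 := 2 * L) ?_ ?_ ?_).trans
      (mul_le_mul_of_nonneg_left (by rw [nrm_sub]; exact hS) (by linarith))
    · rw [abs_of_pos (inv_pos.2 (zero_lt_one.trans_le (ha1 _)))]
      exact inv_le_one_of_one_le₀ (ha1 _)
    · rw [abs_neg, abs_mul]
      refine (mul_le_of_le_one_right (abs_nonneg _) ?_).trans ?_
      · rw [abs_of_nonneg (sq_nonneg _)]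
        exact pow_le_one₀ (inv_nonneg.2 (zero_le_one.trans (ha1 0))) (inv_le_one_of_one_le₀ (ha1 0))
      · rw [hB, hLdef, Finset.mul_sum]
        exact (Finset.abs_sum_le_sum_abs _ _).trans (Finset.sum_le_sum fun k _ =>
          dd0_le A k (hpos 0).1 (hpos 0).2 (v_zero_mem hb) (v_zero_mem hG))
    · refine le_trans (var_le h (e := a) (e' := a) (L := 1) (L' := 0) fun i => ?_) (by linarith)
      have p1 := zero_lt_one.trans_le (ha1 i.castSucc)
      have p2 := zero_lt_one.trans_le (ha1 i.succ)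
      rw [one_mul, zero_mul, add_zero, inv_sub_inv p1.ne' p2.ne', abs_div, abs_sub_comm]
      exact div_le_self (abs_nonneg _) (by
        rw [abs_of_pos (mul_pos p1 p2)]; exact one_le_mul_of_one_le_of_one_le (ha1 _) (ha1 _))
  intro k
  refine (dist_triangle h _ (F b k) _).trans ?_
  have h2 : El.dist m (F b k) (A.blockEl m q k) ≤ C₂ k * ε := by
    rw [blockEl_eq (A := A) hq k, ← nrm_sub, hF, sub_calc h A k hb hG]
    refine (nrm_mul_mk' h _ _ _ (B0 := A.c k / A.ctop) (B1 := 2 * lc A k) (B2 := 2 * lc A k)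
      ?_ (dd0_le A k (hpos 0).1 (hpos 0).2 (v_zero_mem hb) (v_zero_mem hG)) ?_).trans
      ((mul_le_mul_of_nonneg_left hbG ?_).trans (le_of_eq ?_))
    · have := dd_mem A k (hpos (Fin.last r)).1 (hpos (Fin.last r)).2
      rw [abs_of_nonneg this.1]; exact this.2
    · refine (var_le h (e := El.eig m b) (e' := El.eig m G) (L := lc A k) (L' := lc A k)
        fun i => dd_lip A k (hpos _).1 (hpos _).2 (hpos _).1 (hpos _).2).trans ?_
      have := mul_le_of_le_one_right (lc_nonneg A k) (var_eig_le_one h hb)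
      have := mul_le_of_le_one_right (lc_nonneg A k) (var_eig_le_one h hG)
      linarith
    · have := lc_nonneg A k
      have := (A.pos k).le
      positivity
    · simp only [C₂]; ring
  rw [add_mul]
  exact add_le_add
    ((h1 k).trans (mul_le_mul_of_nonneg_right
      (Finset.single_le_sum (fun j _ => hC₁0 j) (Finset.mem_univ k)) hε))
    (h2.trans (mul_le_mul_of_nonneg_right
      (Finset.single_le_sum (fun j _ => hC₂0 j) (Finset.mem_univ k)) hε))

end Vale.Agent.P166.Haar2.Algebra
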